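import Vale.Agent.P235.H830.QDefs

/-! `[STEP]` (helper830): a smaller branch set at `z`. -/

namespace Vale.Agent.P235.H830.Stp

open SimpleGraph Vale.Agent.P235.H134 Vale.Agent.P235.H56 Vale.Agent.P235.H141
open Vale.Agent.P235.H830

section
variable {V : Type} {G : SimpleGraph V}

theorem Touch.symm {S T : Set V} (h : Touch G S T) : Touch G T S := by
  obtain ⟨x, hx, y, hy, h⟩ := h
  exact ⟨y, hy, x, hx, h.symm⟩

theorem edge_out {W A : Set V} (hW : (G.induce W).Connected) (hA : (A ∩ W).Nonempty)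
    (hB : (W \ A).Nonempty) : ∃ a ∈ A ∩ W, ∃ b ∈ W \ A, G.Adj a b := by
  obtain ⟨a, ha⟩ := hA
  obtain ⟨b, hb⟩ := hB
  by_contra h
  push Not at h
  obtain ⟨w⟩ := hW.preconnected ⟨a, ha.2⟩ ⟨b, hb.1⟩
  have key : ∀ (p q : W) (w : (G.induce W).Walk p q), p.1 ∈ A → q.1 ∈ A := by
    intro p q w
    induction w with
    | nil => exact id
    | @cons p q s hpq _ ih =>
      intro hp
      refine ih ?_
      by_contra hq
      exact h p.1 ⟨hp, p.2⟩ q.1 ⟨q.2, hq⟩ hpq
  exact hb.2 (key _ _ w ha.1)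

theorem conn_single (x : V) : (G.induce ({x} : Set V)).Connected := by
  have : Nonempty ({x} : Set V) := ⟨⟨x, rfl⟩⟩
  refine ⟨fun a b => ?_⟩
  have : a = b := Subtype.ext ((Set.mem_singleton_iff.1 a.2).trans (Set.mem_singleton_iff.1 b.2).symm)
  rw [this]

theorem conn_insert {S : Set V} {x : V} (hS : (G.induce S).Connected) (h : Touch G S {x}) :
    (G.induce (S ∪ {x})).Connected := H578.conn_union hS (conn_single x) h

theorem Mod.nonempty {μ : Fin 3 ⊕ Fin 3 → Set V} (h : Mod G μ) (a) : (μ a).Nonempty := by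
  obtain ⟨v⟩ := (h.conn a).nonempty
  exact ⟨v.1, v.2⟩

/-- the labels -/
def cc : Fin 7 → Fin 3 ⊕ Fin 3 :=
  ![Sum.inl 0, Sum.inl 0, Sum.inl 1, Sum.inl 2, Sum.inr 0, Sum.inr 1, Sum.inr 2]

theorem cc_ne {i : Fin 7} (hi : 2 ≤ i) : cc i ≠ Sum.inl 0 := by
  revert i; decide

theorem cc_inj {i j : Fin 7} (hi : 2 ≤ i) (hj : 2 ≤ j) (h : cc i = cc j) : i = j := by
  revert i j; decide

theorem cc_surj (b : Fin 3 ⊕ Fin 3) (hb : b ≠ Sum.inl 0) : ∃ i : Fin 7, 2 ≤ i ∧ cc i = b := by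
  revert b; decide

theorem cc_adj (i j : Fin 7) (hi : i = 2 ∨ i = 3) (hj : j = 4 ∨ j = 5 ∨ j = 6) :
    K33.Adj (cc i) (cc j) := by
  rcases hi with rfl | rfl <;> rcases hj with rfl | rfl | rfl <;> simp [cc]

/-- the special case: `μ (inl 0)` minus `x` misses `inr 1` and `inr 2`. -/
theorem step0 [Finite V] (hP2 : P2Stmt) (hPair : PairStmt) (hSplit : SplitStmt) {z x : V}
    {μ : Fin 3 ⊕ Fin 3 → Set V} (hμ : Mod G μ) (hL : Lkd G z μ) (hz : z ∈ μ (Sum.inl 0))
    (hx : x ∈ μ (Sum.inl 0)) (hxz : x ≠ z) (hW : (G.induce (μ (Sum.inl 0) \ {x})).Connected)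
    (hsat : ∀ v, (∀ b, v ∉ μ b) → ∀ b, b ≠ Sum.inl 0 → ∀ x ∈ μ b, ¬ G.Adj x v)
    (h1 : ¬ Touch G (μ (Sum.inl 0) \ {x}) (μ (Sum.inr 1)))
    (h2 : ¬ Touch G (μ (Sum.inl 0) \ {x}) (μ (Sum.inr 2))) :
    ∃ (ν : Fin 3 ⊕ Fin 3 → Set V) (b : Fin 3 ⊕ Fin 3), Mod G ν ∧ z ∈ ν b ∧
      (ν b).ncard < (μ (Sum.inl 0)).ncard ∧ ∃ c c', c ≠ c' ∧ c ≠ b ∧ c' ≠ b ∧
        (∃ d, μ d ⊆ ν c) ∧ ∃ d, μ d ⊆ ν c' := by
  classical
  set W' : Set V := μ (Sum.inl 0) \ {x} with hW'
  set F : Fin 7 → Set V := fun i => if i = 0 then W' else if i = 1 then {x} else μ (cc i) with hF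
  have F0 : F 0 = W' := by simp [hF]
  have F1 : F 1 = {x} := by simp [hF]
  have F2 : ∀ i : Fin 7, 2 ≤ i → F i = μ (cc i) := by
    intro i hi
    have h0 : i ≠ 0 := by rintro rfl; exact absurd hi (by decide)
    have h1 : i ≠ 1 := by rintro rfl; exact absurd hi (by decide)
    simp only [hF, if_neg h0, if_neg h1]
  have hzW : z ∈ W' := ⟨hz, fun h => hxz h.symm⟩
  have hWsub : W' ⊆ μ (Sum.inl 0) := Set.sdiff_subset
  have hsplit : ∀ v ∈ μ (Sum.inl 0), v = x ∨ v ∈ W' := fun v hv => by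
    by_cases h : v = x
    · exact Or.inl h
    · exact Or.inr ⟨hv, h⟩
  -- touches of `W`
  have htW : ∀ i : Fin 3, Touch G {x} (μ (Sum.inr i)) ∨ Touch G W' (μ (Sum.inr i)) := by
    intro i
    obtain ⟨u, hu, v, hv, huv⟩ := hμ.adj (Sum.inl 0) (Sum.inr i) (by simp)
    rcases hsplit u hu with rfl | hu
    · exact Or.inl ⟨u, rfl, v, hv, huv⟩
    · exact Or.inr ⟨u, hu, v, hv, huv⟩
  have hwx : Touch G W' {x} := by
    obtain ⟨a, ha, b, hb, hab⟩ := edge_out (A := W') (hμ.conn (Sum.inl 0)) ⟨z, hzW, hz⟩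
      ⟨x, hx, fun h => h.2 rfl⟩
    refine ⟨a, ha.1, b, ?_, hab⟩
    rcases hsplit b hb.1 with h | h
    · exact h
    · exact absurd h hb.2
  have h7 : Seven G F := by
    refine ⟨fun i => ?_, fun i j hij => ?_, ?_, ?_, ?_, ?_, fun i j hi hj => ?_⟩
    · by_cases h0 : i = 0
      · subst h0; rw [F0]; exact hW
      by_cases h1 : i = 1
      · subst h1; rw [F1]; exact conn_single x
      have : F i = μ (cc i) := by simp only [hF, if_neg h0, if_neg h1]
      rw [this]; exact hμ.conn _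
    · have key : ∀ i j : Fin 7, i < j → Disjoint (F i) (F j) := by
        intro i j hij
        by_cases h0 : i = 0
        · subst h0
          rw [F0]
          by_cases h1 : j = 1
          · subst h1; rw [F1]; exact Set.disjoint_left.2 fun v hv hv' => hv.2 hv'
          · have hj : 2 ≤ j := by
              rw [Fin.le_def]; rw [Fin.lt_def] at hij
              have : j.val ≠ 1 := fun h => h1 (Fin.ext h)
              simp at hij ⊢; omega
            rw [F2 j hj]
            exact (hμ.disj _ _ (cc_ne hj).symm).mono_left hWsub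
        by_cases h1 : i = 1
        · subst h1
          have hj : 2 ≤ j := by
            rw [Fin.le_def]; rw [Fin.lt_def] at hij
            simp at hij ⊢; omega
          rw [F1, F2 j hj, Set.disjoint_singleton_left]
          exact fun h => Set.disjoint_left.1 (hμ.disj _ _ (cc_ne hj)) h hx
        · have hi : 2 ≤ i := by
            rw [Fin.le_def]
            have h0' : i.val ≠ 0 := fun h => h0 (Fin.ext h)
            have h1' : i.val ≠ 1 := fun h => h1 (Fin.ext h)
            simp; omega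
          have hj : 2 ≤ j := hi.trans hij.le
          rw [F2 i hi, F2 j hj]
          exact hμ.disj _ _ fun h => hij.ne (cc_inj hi hj h)
      rcases lt_or_gt_of_ne hij with h | h
      · exact key _ _ h
      · exact (key _ _ h).symm
    · rw [F0, F1]; exact hwx
    · rw [F1, F2 5 (by decide)]
      rcases htW 1 with h | h
      · exact h
      · exact absurd h h1
    · rw [F1, F2 6 (by decide)]
      rcases htW 2 with h | h
      · exact h
      · exact absurd h h2
    · rw [F0, F1, F2 4 (by decide)]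
      exact htW 0
    · have hi' : 2 ≤ i := by rcases hi with rfl | rfl <;> decide
      have hj' : 2 ≤ j := by rcases hj with rfl | rfl | rfl <;> decide
      rw [F2 i hi', F2 j hj']
      exact hμ.adj _ _ (cc_adj i j hi hj)
  -- from a new model
  have fin : NewM G F → ∃ (ν : Fin 3 ⊕ Fin 3 → Set V) (b : Fin 3 ⊕ Fin 3), Mod G ν ∧ z ∈ ν b ∧
      (ν b).ncard < (μ (Sum.inl 0)).ncard ∧ ∃ c c', c ≠ c' ∧ c ≠ b ∧ c' ≠ b ∧
        (∃ d, μ d ⊆ ν c) ∧ ∃ d, μ d ⊆ ν c' := by
    rintro ⟨ν, b, hν, hb, c, c', hc1, hc2, hc3, ⟨i, hi, hi'⟩, j, hj, hj'⟩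
    refine ⟨ν, b, hν, by rw [hb, F0]; exact hzW, ?_, c, c', hc1, hc2, hc3, ⟨cc i, ?_⟩, cc j, ?_⟩
    · rw [hb, F0]
      exact Set.ncard_sdiff_singleton_lt_of_mem hx
    · rw [← F2 i (le_trans (by decide) hi)]; exact hi'
    · rw [← F2 j (le_trans (by decide) hj)]; exact hj'
  by_cases hpair : ∃ p q : Fin 7, 2 ≤ p ∧ 2 ≤ q ∧ p ≠ q ∧ Touch G (F 0) (F p) ∧ Touch G (F 0) (F q)
  · exact fin (hPair V G F h7 hpair)
  have huniq : ∀ p q : Fin 7, 2 ≤ p → 2 ≤ q → Touch G (F 0) (F p) → Touch G (F 0) (F q) → p = q := by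
    intro p q hp hq h h'
    by_contra hne
    exact hpair ⟨p, q, hp, hq, hne, h, h'⟩
  set O : Set V := {v | ∀ b, v ∉ μ b} with hO
  have hmem : ∀ v, v ∉ O → v = x ∨ v ∈ W' ∨ ∃ j : Fin 7, 2 ≤ j ∧ v ∈ F j := by
    intro v hv
    have : ∃ b, v ∈ μ b := by
      by_contra h
      exact hv fun b hb => h ⟨b, hb⟩
    obtain ⟨b, hb⟩ := this
    by_cases hb0 : b = Sum.inl 0
    · subst hb0
      rcases hsplit v hb with h | h
      · exact Or.inl h
      · exact Or.inr (Or.inl h)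
    · obtain ⟨j, hj, hj'⟩ := cc_surj b hb0
      exact Or.inr (Or.inr ⟨j, hj, by rw [F2 j hj, hj']; exact hb⟩)
  have hsat' : ∀ u ∈ O, ∀ j : Fin 7, 2 ≤ j → ∀ v ∈ F j, ¬ G.Adj u v := by
    intro u hu j hj v hv h
    rw [F2 j hj] at hv
    exact hsat u hu (cc j) (cc_ne hj) v hv h.symm
  have hxO : x ∉ O := fun h => h _ hx
  have hxW : x ∉ W' := fun h => h.2 rfl
  have hFO : ∀ j : Fin 7, 2 ≤ j → ∀ v ∈ F j, v ∉ O := by
    intro j hj v hv h
    rw [F2 j hj] at hv
    exact h _ hv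
  have hFW : ∀ j : Fin 7, 2 ≤ j → ∀ v ∈ F j, v ∉ W' := by
    intro j hj v hv h
    have h0 : (0 : Fin 7) ≠ j := by rintro rfl; exact absurd hj (by decide)
    refine Set.disjoint_left.1 (h7.disj 0 j h0) ?_ hv
    rw [F0]; exact h
  have hFx : ∀ j : Fin 7, 2 ≤ j → x ∉ F j := by
    intro j hj h
    rw [F2 j hj] at h
    exact Set.disjoint_left.1 (hμ.disj _ _ (cc_ne hj)) h hx
  -- no set of the model inside
  have hno : ∀ X : Set V, x ∉ X → (∀ j : Fin 7, 2 ≤ j → ∃ v ∈ F j, v ∉ X) → ¬ ∃ a, μ a ⊆ X := by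
    rintro X hxX hX ⟨a, ha⟩
    by_cases ha0 : a = Sum.inl 0
    · subst ha0; exact hxX (ha hx)
    · obtain ⟨j, hj, hj'⟩ := cc_surj a ha0
      obtain ⟨v, hv, hv'⟩ := hX j hj
      rw [F2 j hj, hj'] at hv
      exact hv' (ha hv)
  -- two touched vertices
  have hT2 : ∃ e : Fin 7, 2 ≤ e ∧ Touch G (F 0) (F e) := by
    by_contra hne
    have hsub : nbr G (W' ∪ O) ⊆ {x} := by
      rintro v ⟨hv, u, hu, huv⟩
      have hvW : v ∉ W' := fun h => hv (Or.inl h)
      have hvO : v ∉ O := fun h => hv (Or.inr h)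
      rcases hmem v hvO with h | h | ⟨j, hj, hvj⟩
      · exact h
      · exact absurd h hvW
      · rcases hu with hu | hu
        · exact absurd ⟨j, hj, u, by rw [F0]; exact hu, v, hvj, huv⟩ hne
        · exact absurd huv (hsat' u hu j hj v hvj)
    have hcard : (nbr G (W' ∪ O)).ncard ≤ 2 :=
      (Set.ncard_le_ncard hsub (Set.toFinite _)).trans (by simp)
    refine hno (W' ∪ O) (fun h => h.elim hxW hxO) (fun j hj => ?_) (hL _ (Or.inl hzW) hcard)
    obtain ⟨v, hv⟩ : (F j).Nonempty := by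
      rw [F2 j hj]; exact Mod.nonempty hμ _
    exact ⟨v, hv, fun h => h.elim (hFW j hj v hv) (hFO j hj v hv)⟩
  obtain ⟨e, he, hte⟩ := hT2
  have he5 : e = 2 ∨ e = 3 ∨ e = 4 := by
    have h5 : e ≠ 5 := by
      rintro rfl
      rw [F0, F2 5 (by decide)] at hte
      exact h1 hte
    have h6 : e ≠ 6 := by
      rintro rfl
      rw [F0, F2 6 (by decide)] at hte
      exact h2 hte
    have key : ∀ e : Fin 7, 2 ≤ e → e ≠ 5 → e ≠ 6 → e = 2 ∨ e = 3 ∨ e = 4 := by decide
    exact key e he h5 h6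
  have honly : ∀ j : Fin 7, 2 ≤ j → j ≠ e → ¬ Touch G (F 0) (F j) := by
    intro j hj hje h
    exact hje (huniq j e hj he h hte)
  set T : Set V := {v | v ∈ F e ∧ ∃ w ∈ W', G.Adj w v} with hTdef
  set R : Set V := {v | v ∈ F e ∧ ∃ j : Fin 7, 2 ≤ j ∧ j ≠ e ∧ ∃ y ∈ F j, G.Adj v y} with hRdef
  have hTne : T.Nonempty := by
    obtain ⟨w, hw, v, hv, hwv⟩ := hte
    rw [F0] at hw
    exact ⟨v, hv, w, hw, hwv⟩
  have hRne : R.Nonempty := by
    rcases he5 with rfl | rfl | rfl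
    · obtain ⟨u, hu, v, hv, huv⟩ := h7.uv 2 4 (Or.inl rfl) (Or.inl rfl)
      exact ⟨u, hu, 4, by decide, by decide, v, hv, huv⟩
    · obtain ⟨u, hu, v, hv, huv⟩ := h7.uv 3 4 (Or.inr rfl) (Or.inl rfl)
      exact ⟨u, hu, 4, by decide, by decide, v, hv, huv⟩
    · obtain ⟨u, hu, v, hv, huv⟩ := h7.uv 2 4 (Or.inl rfl) (Or.inl rfl)
      exact ⟨v, hv, 2, by decide, by decide, u, hu, huv.symm⟩
  rcases hP2 V G (F e) T R (h7.conn e) (fun v hv => hv.1) (fun v hv => hv.1) hTne hRne with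
    ⟨t, ht, Y, hYE, htY, hTY, hYR, hcl⟩ | ⟨E₁, E₂, hE, hEd, hc1, hc2, ht1, ht2, hr1, hr2⟩
  · exfalso
    have hsub : nbr G (W' ∪ O ∪ Y) ⊆ {x, t} := by
      rintro v ⟨hv, u, hu, huv⟩
      have hvW : v ∉ W' := fun h => hv (Or.inl (Or.inl h))
      have hvO : v ∉ O := fun h => hv (Or.inl (Or.inr h))
      have hvY : v ∉ Y := fun h => hv (Or.inr h)
      rcases hmem v hvO with h | h | ⟨j, hj, hvj⟩
      · exact Or.inl h
      · exact absurd h hvW
      · right
        rcases hu with (hu | hu) | hu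
        · have htj : Touch G (F 0) (F j) := ⟨u, by rw [F0]; exact hu, v, hvj, huv⟩
          have hje : j = e := huniq j e hj he htj hte
          subst hje
          rcases hTY (show v ∈ T from ⟨hvj, u, hu, huv⟩) with h | h
          · exact h
          · exact absurd h hvY
        · exact absurd huv (hsat' u hu j hj v hvj)
        · by_cases hje : j = e
          · subst hje
            rcases hcl u hu v hvj huv with h | h
            · exact h
            · exact absurd h hvY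
          · exact absurd (show u ∈ R from ⟨hYE hu, j, hj, hje, v, hvj, huv⟩)
              (Set.disjoint_left.1 hYR hu)
    have hcard : (nbr G (W' ∪ O ∪ Y)).ncard ≤ 2 :=
      (Set.ncard_le_ncard hsub (Set.toFinite _)).trans (Set.ncard_insert_le _ _ |>.trans (by simp))
    refine hno (W' ∪ O ∪ Y) ?_ (fun j hj => ?_) (hL _ (Or.inl (Or.inl hzW)) hcard)
    · rintro ((h | h) | h)
      · exact hxW h
      · exact hxO h
      · exact hFx e he (hYE h)
    · by_cases hje : j = e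
      · subst hje
        refine ⟨t, ht, ?_⟩
        rintro ((h | h) | h)
        · exact hFW j hj t ht h
        · exact hFO j hj t ht h
        · exact htY h
      · obtain ⟨v, hv⟩ : (F j).Nonempty := by
          rw [F2 j hj]; exact Mod.nonempty hμ _
        refine ⟨v, hv, ?_⟩
        rintro ((h | h) | h)
        · exact hFW j hj v hv h
        · exact hFO j hj v hv h
        · exact Set.disjoint_left.1 (h7.disj j e hje) hv (hYE h)
  · refine fin (hSplit V G F e E₁ E₂ h7 he5 honly hE hEd hc1 hc2 ?_ ?_ ?_ ?_)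
    · obtain ⟨v, hv, -, w, hw, hwv⟩ := ht1
      exact ⟨w, by rw [F0]; exact hw, v, hv, hwv⟩
    · obtain ⟨v, hv, -, w, hw, hwv⟩ := ht2
      exact ⟨w, by rw [F0]; exact hw, v, hv, hwv⟩
    · obtain ⟨v, hv, -, j, hj, hje, y, hy, hvy⟩ := hr1
      exact ⟨j, hj, hje, v, hv, y, hy, hvy⟩
    · obtain ⟨v, hv, -, j, hj, hje, y, hy, hvy⟩ := hr2
      exact ⟨j, hj, hje, v, hv, y, hy, hvy⟩

/-- `a = inl 0`, the set `inr 0` may be touched. -/
theorem step1 [Finite V] {z x : V}
    {μ : Fin 3 ⊕ Fin 3 → Set V} (hμ : Mod G μ) (hz : z ∈ μ (Sum.inl 0))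
    (hx : x ∈ μ (Sum.inl 0)) (hxz : x ≠ z) (hW : (G.induce (μ (Sum.inl 0) \ {x})).Connected)
    (i : Fin 3) (h : ∀ j, j ≠ i → Touch G (μ (Sum.inl 0) \ {x}) (μ (Sum.inr j))) :
    ∃ (ν : Fin 3 ⊕ Fin 3 → Set V) (b : Fin 3 ⊕ Fin 3), Mod G ν ∧ z ∈ ν b ∧
      (ν b).ncard < (μ (Sum.inl 0)).ncard ∧ ∃ c c', c ≠ c' ∧ c ≠ b ∧ c' ≠ b ∧
        (∃ d, μ d ⊆ ν c) ∧ ∃ d, μ d ⊆ ν c' := by
  classical
  set W' : Set V := μ (Sum.inl 0) \ {x} with hW'
  have hzW : z ∈ W' := ⟨hz, fun h => hxz h.symm⟩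
  have hWsub : W' ⊆ μ (Sum.inl 0) := Set.sdiff_subset
  have hsplit : ∀ v ∈ μ (Sum.inl 0), v = x ∨ v ∈ W' := fun v hv => by
    by_cases h : v = x
    · exact Or.inl h
    · exact Or.inr ⟨hv, h⟩
  have hwx : Touch G W' {x} := by
    obtain ⟨a, ha, b, hb, hab⟩ := edge_out (A := W') (hμ.conn (Sum.inl 0)) ⟨z, hzW, hz⟩
      ⟨x, hx, fun h => h.2 rfl⟩
    refine ⟨a, ha.1, b, ?_, hab⟩
    rcases hsplit b hb.1 with h | h
    · exact h
    · exact absurd h hb.2
  have hlt : W'.ncard < (μ (Sum.inl 0)).ncard := Set.ncard_sdiff_singleton_lt_of_mem hx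
  by_cases hi : Touch G W' (μ (Sum.inr i))
  · -- drop `x`
    have hall : ∀ j, Touch G W' (μ (Sum.inr j)) := fun j => by
      by_cases hj : j = i
      · rw [hj]; exact hi
      · exact h j hj
    refine ⟨fun b => if b = Sum.inl 0 then W' else μ b, Sum.inl 0, ⟨fun a => ?_, fun a b hab => ?_,
      fun a b hab => ?_⟩, by simpa using hzW, by simpa using hlt, Sum.inl 1, Sum.inl 2, by decide,
      by decide, by decide, ⟨Sum.inl 1, by simp⟩, Sum.inl 2, by simp⟩
    · by_cases h1 : a = Sum.inl 0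
      · have : (if a = Sum.inl 0 then W' else μ a) = W' := if_pos h1
        rw [this]; exact hW
      · have : (if a = Sum.inl 0 then W' else μ a) = μ a := if_neg h1
        rw [this]; exact hμ.conn a
    · try dsimp only
      split_ifs with h1 h2 h2
      · exact absurd (h1.trans h2.symm) hab
      · exact (hμ.disj _ _ (Ne.symm h2)).mono_left hWsub
      · exact (hμ.disj _ _ h1).mono_right hWsub
      · exact hμ.disj _ _ hab
    · try dsimp only
      split_ifs with h1 h2 h2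
      · exact absurd (h1.trans h2.symm) hab.ne
      · subst h1
        rcases b with b | b
        · simp at hab
        · exact hall b
      · subst h2
        rcases a with a | a
        · simp at hab
        · exact Touch.symm (hall a)
      · exact hμ.adj _ _ hab
  · -- `x` goes to `inr i`
    have hxi : Touch G {x} (μ (Sum.inr i)) := by
      obtain ⟨u, hu, v, hv, huv⟩ := hμ.adj (Sum.inl 0) (Sum.inr i) (by simp)
      rcases hsplit u hu with rfl | hu
      · exact ⟨u, rfl, v, hv, huv⟩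
      · exact absurd ⟨u, hu, v, hv, huv⟩ hi
    have hall : ∀ j, Touch G W' (if j = i then μ (Sum.inr i) ∪ {x} else μ (Sum.inr j)) := fun j => by
      split_ifs with hj
      · obtain ⟨u, hu, v, hv, huv⟩ := hwx
        exact ⟨u, hu, v, Or.inr hv, huv⟩
      · exact h j hj
    have hsup : ∀ j, μ (Sum.inr j) ⊆ (if j = i then μ (Sum.inr i) ∪ {x} else μ (Sum.inr j)) := by
      intro j
      split_ifs with hj
      · rw [hj]; exact Set.subset_union_left
      · exact le_rfl
    have hsub : ∀ j, (if j = i then μ (Sum.inr i) ∪ {x} else μ (Sum.inr j)) ⊆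
        μ (Sum.inr j) ∪ {x} := by
      intro j
      split_ifs with hj
      · rw [hj]
      · exact Set.subset_union_left
    set ν : Fin 3 ⊕ Fin 3 → Set V := Sum.elim (fun k => if k = 0 then W' else μ (Sum.inl k))
      (fun j => if j = i then μ (Sum.inr i) ∪ {x} else μ (Sum.inr j)) with hν
    have hlr : ∀ k j, Touch G (ν (Sum.inl k)) (ν (Sum.inr j)) := by
      intro k j
      simp only [hν, Sum.elim_inl, Sum.elim_inr]
      by_cases hk : k = 0
      · rw [if_pos hk]; exact hall j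
      · rw [if_neg hk]
        obtain ⟨u, hu, v, hv, huv⟩ := hμ.adj (Sum.inl k) (Sum.inr j) (by simp)
        exact ⟨u, hu, v, hsup j hv, huv⟩
    have hdl : ∀ k j, Disjoint (ν (Sum.inl k)) (ν (Sum.inr j)) := by
      intro k j
      simp only [hν, Sum.elim_inl, Sum.elim_inr]
      refine Disjoint.mono_right (hsub j) ?_
      rw [Set.disjoint_union_right, Set.disjoint_singleton_right]
      by_cases hk : k = 0
      · rw [if_pos hk]
        exact ⟨(hμ.disj _ _ (by simp)).mono_left hWsub, fun h => h.2 rfl⟩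
      · rw [if_neg hk]
        refine ⟨hμ.disj _ _ (by simp), fun h => ?_⟩
        exact Set.disjoint_left.1 (hμ.disj (Sum.inl k) (Sum.inl 0) (by simpa using hk)) h hx
    refine ⟨ν, Sum.inl 0, ⟨fun a => ?_, fun a b hab => ?_, fun a b hab => ?_⟩,
      by simpa [hν] using hzW, by simpa [hν] using hlt, Sum.inl 1, Sum.inl 2, by decide, by decide,
      by decide, ⟨Sum.inl 1, by simp [hν]⟩, Sum.inl 2, by simp [hν]⟩
    · rcases a with k | j
      · by_cases hk : k = 0
        · have : ν (Sum.inl k) = W' := by simp [hν, hk]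
          rw [this]; exact hW
        · have : ν (Sum.inl k) = μ (Sum.inl k) := by simp [hν, hk]
          rw [this]; exact hμ.conn _
      · by_cases hj : j = i
        · have : ν (Sum.inr j) = μ (Sum.inr i) ∪ {x} := by simp [hν, hj]
          rw [this]; exact conn_insert (hμ.conn _) (Touch.symm hxi)
        · have : ν (Sum.inr j) = μ (Sum.inr j) := by simp [hν, hj]
          rw [this]; exact hμ.conn _
    · rcases a with k | j <;> rcases b with k' | j'
      · have hkk : k ≠ k' := fun h => hab (by rw [h])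
        try simp only [hν, Sum.elim_inl]
        have h0 : ∀ k, (if k = 0 then W' else μ (Sum.inl k)) ⊆ μ (Sum.inl k) := by
          intro k
          split_ifs with hk
          · rw [hk]; exact hWsub
          · exact le_rfl
        exact (hμ.disj _ _ (by simpa using hkk)).mono (h0 k) (h0 k')
      · exact hdl k j'
      · exact (hdl k' j).symm
      · have hjj : j ≠ j' := fun h => hab (by rw [h])
        try simp only [hν, Sum.elim_inr]
        have hx' : ∀ j, x ∉ μ (Sum.inr j) := fun j h =>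
          Set.disjoint_left.1 (hμ.disj (Sum.inr j) (Sum.inl 0) (by simp)) h hx
        have hd := hμ.disj (Sum.inr j) (Sum.inr j') (by simpa using hjj)
        split_ifs with h1 h2 h2
        · exact absurd (h1.trans h2.symm) hjj
        · subst h1
          rw [Set.disjoint_union_left, Set.disjoint_singleton_left]
          exact ⟨hd, hx' _⟩
        · subst h2
          rw [Set.disjoint_union_right, Set.disjoint_singleton_right]
          exact ⟨hd, hx' _⟩
        · exact hd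
    · rcases a with k | j <;> rcases b with k' | j'
      · simp at hab
      · exact hlr k j'
      · exact Touch.symm (hlr k' j)
      · simp at hab

/-- transport along an automorphism of `K_{3,3}` -/
theorem mod_comp {μ : Fin 3 ⊕ Fin 3 → Set V} (hμ : Mod G μ)
    (π : Equiv.Perm (Fin 3 ⊕ Fin 3)) (hπ : ∀ a b, K33.Adj a b → K33.Adj (π a) (π b)) :
    Mod G (μ ∘ π) :=
  ⟨fun a => hμ.conn _, fun a b h => hμ.disj _ _ fun h' => h (π.injective h'),
    fun a b h => hμ.adj _ _ (hπ a b h)⟩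

theorem lkd_comp {μ : Fin 3 ⊕ Fin 3 → Set V} {z : V} (hL : Lkd G z μ)
    (π : Equiv.Perm (Fin 3 ⊕ Fin 3)) : Lkd G z (μ ∘ π) := by
  intro X hz hX
  obtain ⟨a, ha⟩ := hL X hz hX
  exact ⟨π.symm a, by simpa using ha⟩

/-- an automorphism which takes `inl 0`, `inr 1`, `inr 2` to given places -/
theorem exists_aut (a : Fin 3 ⊕ Fin 3) (i : Fin 3 ⊕ Fin 3) (h : K33.Adj a i) :
    ∃ π : Equiv.Perm (Fin 3 ⊕ Fin 3), (∀ a b, K33.Adj a b → K33.Adj (π a) (π b)) ∧
      π (Sum.inl 0) = a ∧ π (Sum.inr 0) = i := by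
  rcases a with a | a <;> rcases i with i | i
  · simp at h
  · refine ⟨Equiv.sumCongr (Equiv.swap 0 a) (Equiv.swap 0 i), ?_, by simp, by simp⟩
    rintro (x | x) (y | y) hxy <;> simp_all
  · refine ⟨(Equiv.sumCongr (Equiv.swap 0 a) (Equiv.swap 0 i)).trans (Equiv.sumComm _ _), ?_,
      by simp, by simp⟩
    rintro (x | x) (y | y) hxy <;> simp_all
  · simp at h

end

/-- **[STEP]** -/
theorem step_of (hN : NCVStmt) (hP2 : P2Stmt) (hPair : PairStmt) (hSplit : SplitStmt) :
    StepStmt := by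
  classical
  intro V _ G z μ a hμ hL hz hne hsat
  obtain ⟨x, hx, hxz, hW⟩ := hN V G (μ a) z (hμ.conn a) hz hne
  -- an opposite set such that the other two are both touched or both missed .. by cases
  have key : ∀ i, K33.Adj a i → ((∀ j, K33.Adj a j → j ≠ i → Touch G (μ a \ {x}) (μ j)) ∨
      (∀ j, K33.Adj a j → j ≠ i → ¬ Touch G (μ a \ {x}) (μ j))) →
      ∃ (ν : Fin 3 ⊕ Fin 3 → Set V) (b : Fin 3 ⊕ Fin 3), Mod G ν ∧ z ∈ ν b ∧
      (ν b).ncard < (μ a).ncard ∧ ∃ c c', c ≠ c' ∧ c ≠ b ∧ c' ≠ b ∧ (∃ d, μ d ⊆ ν c) ∧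
        ∃ d, μ d ⊆ ν c' := by
    intro i hai hcase
    obtain ⟨π, hπ, hπ0, hπi⟩ := exists_aut a i hai
    have hμ' := mod_comp hμ π hπ
    have h0 : (μ ∘ π) (Sum.inl 0) = μ a := by simp [hπ0]
    have hj : ∀ j : Fin 3, j ≠ 0 → K33.Adj a (π (Sum.inr j)) ∧ π (Sum.inr j) ≠ i := by
      intro j hj
      refine ⟨?_, ?_⟩
      · have := hπ (Sum.inl 0) (Sum.inr j) (by simp)
        rwa [hπ0] at this
      · rw [← hπi]
        intro h
        exact hj (by simpa using π.injective h)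
    have fin : (∃ (ν : Fin 3 ⊕ Fin 3 → Set V) (b : Fin 3 ⊕ Fin 3), Mod G ν ∧ z ∈ ν b ∧
      (ν b).ncard < ((μ ∘ π) (Sum.inl 0)).ncard ∧ ∃ c c', c ≠ c' ∧ c ≠ b ∧ c' ≠ b ∧
        (∃ d, (μ ∘ π) d ⊆ ν c) ∧ ∃ d, (μ ∘ π) d ⊆ ν c') →
      ∃ (ν : Fin 3 ⊕ Fin 3 → Set V) (b : Fin 3 ⊕ Fin 3), Mod G ν ∧ z ∈ ν b ∧
      (ν b).ncard < (μ a).ncard ∧ ∃ c c', c ≠ c' ∧ c ≠ b ∧ c' ≠ b ∧ (∃ d, μ d ⊆ ν c) ∧
        ∃ d, μ d ⊆ ν c' := by
      rintro ⟨ν, b, h1, h2, h3, c, c', h4, h5, h6, ⟨d, hd⟩, d', hd'⟩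
      rw [h0] at h3
      exact ⟨ν, b, h1, h2, h3, c, c', h4, h5, h6, ⟨π d, hd⟩, π d', hd'⟩
    rcases hcase with hcase | hcase
    · refine fin (step1 (x := x) hμ' (by rw [h0]; exact hz)
        (by rw [h0]; exact hx) hxz (by rw [h0]; exact hW) 0 fun j hj' => ?_)
      rw [h0]
      exact hcase _ (hj j hj').1 (hj j hj').2
    · refine fin (step0 hP2 hPair hSplit (x := x) hμ' (lkd_comp hL π) (by rw [h0]; exact hz)
        (by rw [h0]; exact hx) hxz (by rw [h0]; exact hW) ?_ ?_ ?_)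
      · intro v hv b hb x hx
        refine hsat v (fun b => ?_) (π b) (fun h => hb (π.injective (h.trans hπ0.symm))) x hx
        have := hv (π.symm b)
        simpa using this
      · rw [h0]
        exact hcase _ (hj 1 (by decide)).1 (hj 1 (by decide)).2
      · rw [h0]
        exact hcase _ (hj 2 (by decide)).1 (hj 2 (by decide)).2
  -- the three opposite sets
  obtain ⟨o, ho, hoa⟩ : ∃ o : Fin 3 → Fin 3 ⊕ Fin 3, (∀ k, K33.Adj a (o k)) ∧
      ∀ j, K33.Adj a j → ∃ k, j = o k := by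
    rcases a with a | a
    · exact ⟨Sum.inr, fun k => by simp, fun j hj => by
        rcases j with j | j
        · simp at hj
        · exact ⟨j, rfl⟩⟩
    · exact ⟨Sum.inl, fun k => by simp, fun j hj => by
        rcases j with j | j
        · exact ⟨j, rfl⟩
        · simp at hj⟩
  have pick : ∀ P : Fin 3 → Prop, ∃ k, (∀ l, l ≠ k → P l) ∨ (∀ l, l ≠ k → ¬ P l) := by
    intro P
    by_cases h0 : P 0 <;> by_cases h1 : P 1 <;> by_cases h2 : P 2
    · exact ⟨0, Or.inl fun l _ => by fin_cases l <;> assumption⟩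
    · exact ⟨2, Or.inl fun l hl => by fin_cases l <;> first | assumption | exact absurd rfl hl⟩
    · exact ⟨1, Or.inl fun l hl => by fin_cases l <;> first | assumption | exact absurd rfl hl⟩
    · exact ⟨0, Or.inr fun l hl => by fin_cases l <;> first | assumption | exact absurd rfl hl⟩
    · exact ⟨0, Or.inl fun l hl => by fin_cases l <;> first | assumption | exact absurd rfl hl⟩
    · exact ⟨1, Or.inr fun l hl => by fin_cases l <;> first | assumption | exact absurd rfl hl⟩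
    · exact ⟨2, Or.inr fun l hl => by fin_cases l <;> first | assumption | exact absurd rfl hl⟩
    · exact ⟨0, Or.inr fun l _ => by fin_cases l <;> assumption⟩
  obtain ⟨k, hk⟩ := pick fun l => Touch G (μ a \ {x}) (μ (o l))
  refine key (o k) (ho k) ?_
  rcases hk with hk | hk
  · left
    intro j hj hjk
    obtain ⟨l, rfl⟩ := hoa j hj
    exact hk l fun h => hjk (by rw [h])
  · right
    intro j hj hjk
    obtain ⟨l, rfl⟩ := hoa j hj
    exact hk l fun h => hjk (by rw [h])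

end Vale.Agent.P235.H830.Stp
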