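import Vale.Agent.P235.H830.QDefs

/-! `[UNC]` (helper830): uncrossing. -/

namespace Vale.Agent.P235.H830.Un

open SimpleGraph Vale.Agent.P235.H134 Vale.Agent.P235.H56 Vale.Agent.P235.H141
open Vale.Agent.P235.H830

variable {V : Type} [Finite V] {G : SimpleGraph V}

theorem submod (BB X Y : Set V) :
    (nbr G (X ∩ Y) \ BB).ncard + (nbr G (X ∪ Y) \ BB).ncard ≤
      (nbr G X \ BB).ncard + (nbr G Y \ BB).ncard := by
  classical
  have h1 := Set.ncard_union_add_ncard_inter (nbr G (X ∩ Y) \ BB) (nbr G (X ∪ Y) \ BB)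
    (Set.toFinite _) (Set.toFinite _)
  have h2 := Set.ncard_union_add_ncard_inter (nbr G X \ BB) (nbr G Y \ BB)
    (Set.toFinite _) (Set.toFinite _)
  rw [← h1, ← h2]
  refine Nat.add_le_add (Set.ncard_le_ncard ?_ (Set.toFinite _))
    (Set.ncard_le_ncard ?_ (Set.toFinite _))
  · rintro v (⟨⟨hv, u, hu, huv⟩, hB⟩ | ⟨⟨hv, u, hu, huv⟩, hB⟩)
    · by_cases hX : v ∈ X
      · exact Or.inr ⟨⟨fun hY => hv ⟨hX, hY⟩, u, hu.2, huv⟩, hB⟩
      · exact Or.inl ⟨⟨hX, u, hu.1, huv⟩, hB⟩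
    · rcases hu with hu | hu
      · exact Or.inl ⟨⟨fun h => hv (Or.inl h), u, hu, huv⟩, hB⟩
      · exact Or.inr ⟨⟨fun h => hv (Or.inr h), u, hu, huv⟩, hB⟩
  · rintro v ⟨⟨⟨-, u, hu, huv⟩, hB⟩, ⟨⟨hv, -⟩, -⟩⟩
    exact ⟨⟨⟨fun h => hv (Or.inl h), u, hu.1, huv⟩, hB⟩,
      ⟨fun h => hv (Or.inr h), u, hu.2, huv⟩, hB⟩

theorem low {BB B I : Set V} (h3 : Conn3 G) (hB : 3 ≤ B.ncard) (hIB : Disjoint I B)
    (hI : I.Nonempty) (hN : ∀ v ∈ nbr G I, v ∉ BB) : 3 ≤ (nbr G I \ BB).ncard := by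
  classical
  have h0 : nbr G I \ BB = nbr G I := by
    ext v
    exact ⟨fun h => h.1, fun h => ⟨h, hN v h⟩⟩
  rw [h0]
  by_contra hlt
  have key : ∀ s t : V, s ∉ I → t ∉ I → nbr G I ⊆ {s, t} → False := by
    intro s t hs ht hsub
    have h := h3 s t I hI hs ht fun u hu v huv => by
      by_cases hv : v ∈ I
      · exact Or.inl hv
      · exact Or.inr (hsub ⟨hv, u, hu, huv⟩)
    have hBs : B ⊆ {s, t} := fun b hb => by
      rcases h b with h | h | h
      · exact absurd hb (Set.disjoint_left.1 hIB h)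
      · exact Or.inl h
      · exact Or.inr h
    have h1 := Set.ncard_le_ncard hBs (Set.toFinite _)
    have h2 := Set.ncard_insert_le s ({t} : Set V)
    have h4 : ({t} : Set V).ncard = 1 := Set.ncard_singleton t
    omega
  have hBne : B.Nonempty := by
    by_contra h
    rw [Set.not_nonempty_iff_eq_empty] at h
    rw [h, Set.ncard_empty] at hB
    omega
  obtain ⟨b, hb⟩ := hBne
  have hbI : b ∉ I := fun h => Set.disjoint_left.1 hIB h hb
  rcases (nbr G I).eq_empty_or_nonempty with h | ⟨s, hs⟩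
  · exact key b b hbI hbI (by rw [h]; exact Set.empty_subset _)
  · rcases (nbr G I \ {s}).eq_empty_or_nonempty with h | ⟨t, ht⟩
    · refine key s s hs.1 hs.1 fun v hv => ?_
      by_contra hne
      have : v ∈ nbr G I \ {s} := ⟨hv, fun h' => hne (Or.inl h')⟩
      rw [h] at this
      exact this
    · refine key s t hs.1 ht.1.1 fun v hv => ?_
      by_contra hne
      have hvs : v ≠ s := fun h' => hne (Or.inl h')
      have hvt : v ≠ t := fun h' => hne (Or.inr h')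
      have hst : t ≠ s := fun h' => ht.2 h'
      have h5 : ({s, t, v} : Set V) ⊆ nbr G I := by
        rintro w (rfl | rfl | rfl)
        · exact hs
        · exact ht.1
        · exact hv
      have h6 := Set.ncard_le_ncard h5 (Set.toFinite _)
      rw [Set.ncard_eq_three.2 ⟨s, t, v, hst.symm, hvs.symm, hvt.symm, rfl⟩] at h6
      omega

theorem unc : UncStmt := by
  classical
  intro V _ G B S D h3 hS hBB hSB hDB hN hne h0
  set BB : Set V := ⋃ i, B i with hBBdef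
  have mB : ∀ v i, v ∈ B i → v ∈ BB := fun v i h => Set.mem_iUnion.2 ⟨i, h⟩
  have hD : ∀ i, (nbr G (D i) \ BB).ncard ≤ 2 := fun i =>
    (Set.ncard_le_ncard (fun v hv => by
      rcases hN i hv.1 with h | h
      · exact h
      · exact absurd (mB v i h) hv.2) (Set.toFinite _)).trans (hS i)
  -- outer neighbours of `D i` in a block
  have hDN : ∀ i j v, v ∈ nbr G (D i) → v ∈ B j → i = j := by
    intro i j v hv hvj
    rcases hN i hv with h | h
    · exact absurd hvj (Set.disjoint_left.1 (hSB i j) h)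
    · by_contra hij
      exact Set.disjoint_left.1 (hBB i j hij) h hvj
  have hDj : ∀ i j v, v ∈ B j → v ∉ D i := fun i j v hv h => Set.disjoint_left.1 (hDB i j) h hv
  -- unions
  have s1 := submod (G := G) BB (D 0) (D 1)
  have s2 := submod (G := G) BB (D 0 ∪ D 1) (D 2)
  have s3 := submod (G := G) BB (D 0 ∪ D 1 ∪ D 2) (D 3)
  have hU2 : ∀ v j, v ∈ nbr G (D 0 ∪ D 1) → v ∈ B j → j = 0 ∨ j = 1 := by
    rintro v j ⟨hv, u, hu, huv⟩ hvj
    rcases hu with hu | hu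
    · exact Or.inl (hDN 0 j v ⟨fun h => hv (Or.inl h), u, hu, huv⟩ hvj).symm
    · exact Or.inr (hDN 1 j v ⟨fun h => hv (Or.inr h), u, hu, huv⟩ hvj).symm
  have hU3 : ∀ v j, v ∈ nbr G (D 0 ∪ D 1 ∪ D 2) → v ∈ B j → j = 0 ∨ j = 1 ∨ j = 2 := by
    rintro v j ⟨hv, u, hu, huv⟩ hvj
    rcases hu with hu | hu
    · rcases hU2 v j ⟨fun h => hv (Or.inl h), u, hu, huv⟩ hvj with h | h
      · exact Or.inl h
      · exact Or.inr (Or.inl h)
    · exact Or.inr (Or.inr (hDN 2 j v ⟨fun h => hv (Or.inr h), u, hu, huv⟩ hvj).symm)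
  have l1 : 3 ≤ (nbr G (D 0 ∩ D 1) \ BB).ncard := by
    refine low h3 h0 ((hDB 0 0).mono_left Set.inter_subset_left) (hne 0 1) ?_
    rintro v ⟨hv, u, hu, huv⟩ hB
    obtain ⟨j, hj⟩ := Set.mem_iUnion.1 hB
    have e0 := hDN 0 j v ⟨hDj 0 j v hj, u, hu.1, huv⟩ hj
    have e1 := hDN 1 j v ⟨hDj 1 j v hj, u, hu.2, huv⟩ hj
    exact absurd (e0.trans e1.symm) (by decide)
  have l2 : 3 ≤ (nbr G ((D 0 ∪ D 1) ∩ D 2) \ BB).ncard := by
    refine low h3 h0 ((hDB 2 0).mono_left Set.inter_subset_right) ?_ ?_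
    · obtain ⟨v, hv, hv'⟩ := hne 0 2
      exact ⟨v, Or.inl hv, hv'⟩
    · rintro v ⟨hv, u, hu, huv⟩ hB
      obtain ⟨j, hj⟩ := Set.mem_iUnion.1 hB
      have e0 := hU2 v j ⟨fun h => h.elim (hDj 0 j v hj) (hDj 1 j v hj), u, hu.1, huv⟩ hj
      have e1 := hDN 2 j v ⟨hDj 2 j v hj, u, hu.2, huv⟩ hj
      subst e1
      exact absurd e0 (by decide)
  have l3 : 3 ≤ (nbr G ((D 0 ∪ D 1 ∪ D 2) ∩ D 3) \ BB).ncard := by
    refine low h3 h0 ((hDB 3 0).mono_left Set.inter_subset_right) ?_ ?_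
    · obtain ⟨v, hv, hv'⟩ := hne 0 3
      exact ⟨v, Or.inl (Or.inl hv), hv'⟩
    · rintro v ⟨hv, u, hu, huv⟩ hB
      obtain ⟨j, hj⟩ := Set.mem_iUnion.1 hB
      have e0 := hU3 v j ⟨fun h => h.elim (fun h => h.elim (hDj 0 j v hj) (hDj 1 j v hj))
        (hDj 2 j v hj), u, hu.1, huv⟩ hj
      have e1 := hDN 3 j v ⟨hDj 3 j v hj, u, hu.2, huv⟩ hj
      subst e1
      exact absurd e0 (by decide)
  have d0 := hD 0
  have d1 := hD 1
  have d2 := hD 2
  have d3 := hD 3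
  omega

end Vale.Agent.P235.H830.Un
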