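import Vale.Agent.P235.H830.Asm
import Vale.Agent.P235.H830.Step
import Vale.Agent.P235.H830.Unc
import Vale.Agent.P235.H648.Ncv
import Vale.Agent.P235.H648.Pair
import Vale.Agent.P235.H236.Split
import Vale.Agent.P235.H536Q.P2
import Vale.Agent.P235.H427.V2
import Vale.Agent.P235.H578.Up
import Vale.Agent.P235.H578.Col
import Vale.Agent.P235.H578.Fail
import Vale.Agent.P235.H23.Ind4
import Vale.Agent.P235.H455.Blk
import Vale.Agent.P235.H452.Geo

/-! `(V2)` and `(S')` (helper830, from the rows of helper23, 236, 427, 452, 455, 536, 578, 648). -/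

namespace Vale.Agent.P235.H830

theorem stepStmt : StepStmt :=
  Stp.step_of H648.ncv H536Q.p2Stmt H648.pair (H236.Spl.split_of_pair H648.pair)

/-- a vertex which is not separated from a model of `K_{3,3}` by two vertices is a branch set of
a model of `K_{3,3}` -/
theorem v2Stmt : V2Stmt := H427.v2_of stepStmt

theorem sPrime_of_unc (hU : UncStmt) : SPrimeStmt :=
  sPrime_of v2Stmt H578.colStmt H578.failStmt H578.upStmt hU H23.ind4 H452.geo H455.blk_stmt

/-- **(S')** a 3-connected graph with a minor `K_{3,3} ⊔ grid (RR r)` has the minor `Q r`. -/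
theorem sPrime : SPrimeStmt := sPrime_of_unc Un.unc

end Vale.Agent.P235.H830
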