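import Vale.Agent.P235.H141.JDefs
import Vale.Agent.P235.H578.LK

/-!
# `K_{3,3}` with one vertex blown up to a grid: statements (helper830)

`Q r` is the `r × r` grid inside a triangle `a b c` (`a` joined to the first row, `b` to the first
column, `c` to the last row and the last column) and two more vertices joined to `a`, `b`, `c`.
Target: a 3-connected graph with a minor `K33 ⊕g grid R` has the minor `Q r`.
Everything is a typed interface: each block proves `theorem … : XStmt`.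
-/

namespace Vale.Agent.P235.H830

open SimpleGraph Vale.Agent.P235.H134 Vale.Agent.P235.H56 Vale.Agent.P235.H141

/-! ## Sets, models -/

/-- an edge between two sets -/
def Touch {V : Type} (G : SimpleGraph V) (S T : Set V) : Prop := ∃ x ∈ S, ∃ y ∈ T, G.Adj x y

/-- outer neighbours of a set -/
def nbr {V : Type} (G : SimpleGraph V) (X : Set V) : Set V := {v | v ∉ X ∧ ∃ x ∈ X, G.Adj x v}

/-- `μ` is a model of `K_{3,3}` in `G` -/
structure Mod {V : Type} (G : SimpleGraph V) (μ : Fin 3 ⊕ Fin 3 → Set V) : Prop where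
  conn : ∀ a, (G.induce (μ a)).Connected
  disj : ∀ a b, a ≠ b → Disjoint (μ a) (μ b)
  adj : ∀ a b, K33.Adj a b → Touch G (μ a) (μ b)

/-- no two vertices (different from `z`) separate `z` from the model -/
def Lkd {V : Type} (G : SimpleGraph V) (z : V) (μ : Fin 3 ⊕ Fin 3 → Set V) : Prop :=
  ∀ X : Set V, z ∈ X → (nbr G X).ncard ≤ 2 → ∃ a, μ a ⊆ X

/-- **(V2)** a vertex which is not separated from a model of `K_{3,3}` is a branch set of a model of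
`K_{3,3}`. -/
def V2Stmt : Prop := ∀ (V : Type) [Finite V] (G : SimpleGraph V) (z : V)
  (μ : Fin 3 ⊕ Fin 3 → Set V), Mod G μ → Lkd G z μ →
    ∃ (ν : Fin 3 ⊕ Fin 3 → Set V) (a : Fin 3 ⊕ Fin 3), Mod G ν ∧ ν a = {z}

/-! ## The rows for (V2) -/

/-- (NCV) a vertex different from `z` which does not disconnect. -/
def NCVStmt : Prop := ∀ (V : Type) [Finite V] (G : SimpleGraph V) (W : Set V) (z : V),
  (G.induce W).Connected → z ∈ W → W ≠ {z} → ∃ x ∈ W, x ≠ z ∧ (G.induce (W \ {x})).Connected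

/-- (P2) in a connected set `E`, either one vertex `t` separates `T` from `R`, or `E` is the union
of two disjoint connected sets which both meet `T` and `R` (Menger with two paths). -/
def P2Stmt : Prop := ∀ (V : Type) [Finite V] (G : SimpleGraph V) (E T R : Set V),
  (G.induce E).Connected → T ⊆ E → R ⊆ E → T.Nonempty → R.Nonempty →
    (∃ t ∈ E, ∃ Y : Set V, Y ⊆ E ∧ t ∉ Y ∧ T ⊆ insert t Y ∧ Disjoint Y R ∧
      ∀ y ∈ Y, ∀ v ∈ E, G.Adj y v → v ∈ insert t Y) ∨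
    ∃ E₁ E₂ : Set V, E₁ ∪ E₂ = E ∧ Disjoint E₁ E₂ ∧ (G.induce E₁).Connected ∧
      (G.induce E₂).Connected ∧ (E₁ ∩ T).Nonempty ∧ (E₂ ∩ T).Nonempty ∧
      (E₁ ∩ R).Nonempty ∧ (E₂ ∩ R).Nonempty

/-- (ABS) the vertices outside a model are absorbed by the sets different from `μ a`, or are joined
to `μ a` only. -/
def AbsStmt : Prop := ∀ (V : Type) [Finite V] (G : SimpleGraph V)
  (μ : Fin 3 ⊕ Fin 3 → Set V) (a : Fin 3 ⊕ Fin 3), Mod G μ →
    ∃ ν : Fin 3 ⊕ Fin 3 → Set V, Mod G ν ∧ ν a = μ a ∧ (∀ b, μ b ⊆ ν b) ∧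
      ∀ v, (∀ b, v ∉ ν b) → ∀ b, b ≠ a → ∀ x ∈ ν b, ¬ G.Adj x v

/-- (INIT) a model one set of which contains `z`. -/
def InitStmt : Prop := ∀ (V : Type) [Finite V] (G : SimpleGraph V) (z : V)
  (μ : Fin 3 ⊕ Fin 3 → Set V), Mod G μ → Lkd G z μ →
    ∃ ν : Fin 3 ⊕ Fin 3 → Set V, Mod G ν ∧ (∃ a, z ∈ ν a) ∧ ∀ b, μ b ⊆ ν b

/-- (PERS) `Lkd` persists if two of the new sets which do not contain `z` contain old sets. -/
def PersStmt : Prop := ∀ (V : Type) [Finite V] (G : SimpleGraph V) (z : V)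
  (μ ν : Fin 3 ⊕ Fin 3 → Set V), Mod G μ → Mod G ν → Lkd G z μ →
    (∃ a, z ∈ ν a ∧ ∃ b c, b ≠ c ∧ b ≠ a ∧ c ≠ a ∧ (∃ b', μ b' ⊆ ν b) ∧ ∃ c', μ c' ⊆ ν c) →
      Lkd G z ν

/-- seven disjoint connected sets: `F 0 ∪ F 1, F 2, F 3` against `F 4, F 5, F 6` is a `K_{3,3}`
where `F 1` (not `F 0`) touches `F 5` and `F 6` -/
structure Seven {V : Type} (G : SimpleGraph V) (F : Fin 7 → Set V) : Prop where
  conn : ∀ i, (G.induce (F i)).Connected
  disj : ∀ i j, i ≠ j → Disjoint (F i) (F j)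
  wx : Touch G (F 0) (F 1)
  xb : Touch G (F 1) (F 5)
  xc : Touch G (F 1) (F 6)
  xa : Touch G (F 1) (F 4) ∨ Touch G (F 0) (F 4)
  uv : ∀ i j : Fin 7, (i = 2 ∨ i = 3) → (j = 4 ∨ j = 5 ∨ j = 6) → Touch G (F i) (F j)

/-- a new model with the set `F 0`, two other sets contain two of `F 4, F 5, F 6` -/
def NewM {V : Type} (G : SimpleGraph V) (F : Fin 7 → Set V) : Prop :=
  ∃ (ν : Fin 3 ⊕ Fin 3 → Set V) (b : Fin 3 ⊕ Fin 3), Mod G ν ∧ ν b = F 0 ∧
    ∃ c c' : Fin 3 ⊕ Fin 3, c ≠ c' ∧ c ≠ b ∧ c' ≠ b ∧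
      (∃ i : Fin 7, 4 ≤ i ∧ F i ⊆ ν c) ∧ ∃ i : Fin 7, 4 ≤ i ∧ F i ⊆ ν c'

/-- (PAIR) `F 0` touches two of the sets `F 2, …, F 6`. With `F = (W, x, U, V, A, B, C)`:
`U, V`: `W, B, C | x, U, V`; `U, A`: `W, B, C | x, U, A ∪ V`; `U, B` (`W` does not touch `A`):
`W, A, C | x, U, B ∪ V`; `A, B`: `W, U, V | x ∪ C, A, B`; `B, C`: `W, U, V | A ∪ x, B, C` or
`W, U, V | A, B, C`. -/
def PairStmt : Prop := ∀ (V : Type) (G : SimpleGraph V) (F : Fin 7 → Set V), Seven G F →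
  (∃ p q : Fin 7, 2 ≤ p ∧ 2 ≤ q ∧ p ≠ q ∧ Touch G (F 0) (F p) ∧ Touch G (F 0) (F q)) → NewM G F

/-- (SPLIT) `F 0` touches only `F e`, `e ∈ {2, 3, 4}`, and `F e` is the union of two disjoint
connected sets which both touch `F 0` and another set `F j`, `j ≥ 2`. -/
def SplitStmt : Prop := ∀ (V : Type) (G : SimpleGraph V) (F : Fin 7 → Set V) (e : Fin 7)
  (E₁ E₂ : Set V), Seven G F → (e = 2 ∨ e = 3 ∨ e = 4) →
    (∀ j : Fin 7, 2 ≤ j → j ≠ e → ¬ Touch G (F 0) (F j)) → E₁ ∪ E₂ = F e → Disjoint E₁ E₂ →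
    (G.induce E₁).Connected → (G.induce E₂).Connected → Touch G (F 0) E₁ → Touch G (F 0) E₂ →
    (∃ j : Fin 7, 2 ≤ j ∧ j ≠ e ∧ Touch G E₁ (F j)) →
    (∃ j : Fin 7, 2 ≤ j ∧ j ≠ e ∧ Touch G E₂ (F j)) → NewM G F

/-- (STEP) a smaller branch set at `z`. -/
def StepStmt : Prop := ∀ (V : Type) [Finite V] (G : SimpleGraph V) (z : V)
  (μ : Fin 3 ⊕ Fin 3 → Set V) (a : Fin 3 ⊕ Fin 3), Mod G μ → Lkd G z μ → z ∈ μ a → μ a ≠ {z} →
    (∀ v, (∀ b, v ∉ μ b) → ∀ b, b ≠ a → ∀ x ∈ μ b, ¬ G.Adj x v) →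
    ∃ (ν : Fin 3 ⊕ Fin 3 → Set V) (b : Fin 3 ⊕ Fin 3), Mod G ν ∧ z ∈ ν b ∧
      (ν b).ncard < (μ a).ncard ∧ ∃ c c', c ≠ c' ∧ c ≠ b ∧ c' ≠ b ∧ (∃ d, μ d ⊆ ν c) ∧
        ∃ d, μ d ⊆ ν c'

/-! ## The graph `Q r` and the collapse of a block -/

/-- the three sides of the grid -/
def side (r : ℕ) (i : Fin 3) : Set (Fin r × Fin r) :=
  {x | (i = 0 ∧ x.1.val = 0) ∨ (i = 1 ∧ x.2.val = 0) ∨
    (i = 2 ∧ (x.1.val + 1 = r ∨ x.2.val + 1 = r))}

/-- the `r × r` grid inside a triangle, and two more vertices joined to the triangle -/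
def Q (r : ℕ) : SimpleGraph ((Fin 3 ⊕ Fin 2) ⊕ (Fin r × Fin r)) :=
  SimpleGraph.fromRel fun p q =>
    (∃ i j : Fin 3, i ≠ j ∧ p = Sum.inl (Sum.inl i) ∧ q = Sum.inl (Sum.inl j)) ∨
    (∃ (i : Fin 3) (j : Fin 2), p = Sum.inl (Sum.inl i) ∧ q = Sum.inl (Sum.inr j)) ∨
    (∃ (i : Fin 3) (x : Fin r × Fin r), x ∈ side r i ∧ p = Sum.inl (Sum.inl i) ∧ q = Sum.inr x) ∨
    ∃ x y : Fin r × Fin r, (grid r).Adj x y ∧ p = Sum.inr x ∧ q = Sum.inr y

/-- `G` outside of `B`, the sets `X i ⊆ B` made vertices `some i` (pairwise joined), and one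
vertex `none` joined to these three only -/
def col {V : Type} (G : SimpleGraph V) (B : Set V) (X : Fin 3 → Set V) :
    SimpleGraph ({v : V // v ∉ B} ⊕ Option (Fin 3)) :=
  SimpleGraph.fromRel fun p q =>
    (∃ v w : {v : V // v ∉ B}, G.Adj v w ∧ p = Sum.inl v ∧ q = Sum.inl w) ∨
    (∃ (v : {v : V // v ∉ B}) (i : Fin 3), (∃ x ∈ X i, G.Adj v x) ∧ p = Sum.inl v ∧
      q = Sum.inr (some i)) ∨
    (∃ i j : Fin 3, i ≠ j ∧ p = Sum.inr (some i) ∧ q = Sum.inr (some j)) ∨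
    ∃ i : Fin 3, p = Sum.inr none ∧ q = Sum.inr (some i)

/-- a set as a set of vertices of `col G B X` -/
def up {V : Type} (B S : Set V) : Set ({v : V // v ∉ B} ⊕ Option (Fin 3)) :=
  {p | ∃ v : {v : V // v ∉ B}, v.1 ∈ S ∧ p = Sum.inl v}

/-- (UP) models outside of `B` are models of the collapse. -/
def UpStmt : Prop := ∀ (V : Type) (G : SimpleGraph V) (B : Set V) (X : Fin 3 → Set V)
  (μ : Fin 3 ⊕ Fin 3 → Set V), Mod G μ → (∀ a, Disjoint (μ a) B) →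
    Mod (col G B X) fun a => up B (μ a)

/-- (COL) a model of `K_{3,3}` in the collapse with the branch set `{none}` gives `Q r`. -/
def ColStmt : Prop := ∀ (V : Type) (G : SimpleGraph V) (B : Set V) (X : Fin 3 → Set V) (r : ℕ)
  (Y : Fin r × Fin r → Set V), (∀ i, (G.induce (X i)).Connected) →
    (∀ i j, i ≠ j → Disjoint (X i) (X j)) → (∀ i j, i ≠ j → Touch G (X i) (X j)) →
    (∀ i, X i ⊆ B) → (∀ p, (G.induce (Y p)).Connected) →
    (∀ p q, p ≠ q → Disjoint (Y p) (Y q)) → (∀ p q, (grid r).Adj p q → Touch G (Y p) (Y q)) →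
    (∀ p, Y p ⊆ B) → (∀ p i, Disjoint (Y p) (X i)) →
    (∀ i, ∀ p ∈ side r i, Touch G (X i) (Y p)) →
    (∃ (ν : Fin 3 ⊕ Fin 3 → Set _) (a : Fin 3 ⊕ Fin 3), Mod (col G B X) ν ∧
      ν a = {Sum.inr none}) → IsMinor (Q r) G

/-- (FAIL) `none` is separated from the model in the collapse: the other side `D` of the cut. -/
def FailStmt : Prop := ∀ (V : Type) [Finite V] (G : SimpleGraph V) (B : Set V)
  (X : Fin 3 → Set V) (μ : Fin 3 ⊕ Fin 3 → Set V), Mod G μ → (∀ a, Disjoint (μ a) B) →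
    (∀ i, X i ⊆ B) → ¬ Lkd (col G B X) (Sum.inr none) (fun a => up B (μ a)) →
    ∃ (S D : Set V) (i : Fin 3), S.ncard ≤ 2 ∧ Disjoint S B ∧ Disjoint D B ∧
      nbr G D ⊆ S ∪ B ∧ (∀ a, Disjoint (μ a) S → μ a ⊆ D) ∧
      ∀ Z : Set V, (G.induce Z).Connected → Disjoint Z B → Disjoint Z S →
        Touch G Z (X i) → Disjoint Z D

/-- (UNC) uncrossing: four cuts through different blocks with two more vertices each give a 2-cut. -/
def UncStmt : Prop := ∀ (V : Type) [Finite V] (G : SimpleGraph V) (B S D : Fin 4 → Set V),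
  Conn3 G → (∀ i, (S i).ncard ≤ 2) → (∀ i j, i ≠ j → Disjoint (B i) (B j)) →
    (∀ i j, Disjoint (S i) (B j)) → (∀ i j, Disjoint (D i) (B j)) →
    (∀ i, nbr G (D i) ⊆ S i ∪ B i) → (∀ i j, (D i ∩ D j).Nonempty) → 3 ≤ (B 0).ncard → False

/-- (IND) four of sixteen. -/
def Ind4Stmt : Prop := ∀ f : Fin 16 → Set (Fin 16), (∀ k, (f k).ncard ≤ 2) →
  ∃ g : Fin 4 → Fin 16, Function.Injective g ∧ ∀ i j, i ≠ j → g j ∉ f (g i)

/-! ## Blocks of the grid -/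

/-- first row and column of the block `k` -/
def st (r k : ℕ) : ℕ := 3 + k * (r + 2)

/-- the size of the large grid -/
def RR (r : ℕ) : ℕ := 6 + 16 * (r + 2)

/-- the block `k`, of size `r + 2`, on the diagonal -/
def blk (r : ℕ) (k : Fin 16) : Set (Fin (RR r) × Fin (RR r)) :=
  {x | st r k.val ≤ x.1.val ∧ x.1.val < st r (k.val + 1) ∧ st r k.val ≤ x.2.val ∧
    x.2.val < st r (k.val + 1)}

/-- three arcs of the boundary of the block: first row; first column; last row and last column -/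
def ring (r : ℕ) (k : Fin 16) (i : Fin 3) : Set (Fin (RR r) × Fin (RR r)) :=
  {x | x ∈ blk r k ∧ ((i = 0 ∧ x.1.val = st r k.val) ∨
    (i = 1 ∧ x.1.val ≠ st r k.val ∧ x.2.val = st r k.val) ∨
    (i = 2 ∧ x.1.val ≠ st r k.val ∧ x.2.val ≠ st r k.val ∧
      (x.1.val + 1 = st r (k.val + 1) ∨ x.2.val + 1 = st r (k.val + 1))))}

/-- the interior of the block -/
def inn (r : ℕ) (k : Fin 16) (p : Fin r × Fin r) : Fin (RR r) × Fin (RR r) :=
  (⟨st r k.val + 1 + p.1.val, by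
      have h1 := p.1.isLt
      have h2 : (k.val + 1) * (r + 2) ≤ 16 * (r + 2) := Nat.mul_le_mul_right _ k.isLt
      have h3 : (k.val + 1) * (r + 2) = k.val * (r + 2) + (r + 2) := by ring
      unfold RR st; omega⟩,
    ⟨st r k.val + 1 + p.2.val, by
      have h1 := p.2.isLt
      have h2 : (k.val + 1) * (r + 2) ≤ 16 * (r + 2) := Nat.mul_le_mul_right _ k.isLt
      have h3 : (k.val + 1) * (r + 2) = k.val * (r + 2) + (r + 2) := by ring
      unfold RR st; omega⟩)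

/-- (BLK) the geometry inside one block. -/
def BlkStmt : Prop := ∀ (r : ℕ) (k : Fin 16), 1 ≤ r →
  (∀ i, ((grid (RR r)).induce (ring r k i)).Connected) ∧
  (∀ i j, i ≠ j → Disjoint (ring r k i) (ring r k j)) ∧
  (∀ i j, i ≠ j → Touch (grid (RR r)) (ring r k i) (ring r k j)) ∧
  Function.Injective (inn r k) ∧ (∀ p q, (grid r).Adj p q → (grid (RR r)).Adj (inn r k p) (inn r k q)) ∧
  (∀ p, inn r k p ∈ blk r k) ∧ (∀ p i, inn r k p ∉ ring r k i) ∧
  (∀ i, ∀ p ∈ side r i, Touch (grid (RR r)) (ring r k i) {inn r k p}) ∧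
  3 ≤ (blk r k).ncard ∧ ∀ l, k ≠ l → Disjoint (blk r k) (blk r l)

/-- (GEO) from the block `l` to the arc `i` of the block `k`, avoiding two vertices: the rows and
columns which miss the block `k` and `T`. -/
def GeoStmt : Prop := ∀ (r : ℕ), 2 ≤ r → ∀ k l : Fin 16, k ≠ l →
  ∀ T : Set (Fin (RR r) × Fin (RR r)), T.ncard ≤ 2 → Disjoint T (blk r k) →
    Disjoint T (blk r l) → ∀ i : Fin 3, ∃ Z : Set (Fin (RR r) × Fin (RR r)),
      ((grid (RR r)).induce Z).Connected ∧ blk r l ⊆ Z ∧ Disjoint Z (blk r k) ∧ Disjoint Z T ∧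
      Touch (grid (RR r)) Z (ring r k i)

/-- **(S')** -/
def SPrimeStmt : Prop := ∀ r : ℕ, 2 ≤ r → ∀ (V : Type) [Finite V] (G : SimpleGraph V), Conn3 G →
  IsMinor (K33 ⊕g grid (RR r)) G → IsMinor (Q r) G

/-- (MQ) monotone in `r`: the rows and columns from `r` on are added to the vertex `c`. -/
def MonoQStmt : Prop := ∀ r s : ℕ, r ≤ s → IsMinor (Q r) (Q s)

/-- (JQ) the boundary of the grid `r + 2` is a vertex of `K_{3,3}`. -/
def JQStmt : Prop := ∀ r : ℕ, 1 ≤ r → IsMinor (H578.jj r) (Q (r + 2))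

end Vale.Agent.P235.H830
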