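import Vale.Agent.P235.H830.QDefs

/-! `[ASM]` (helper830): `SPrimeStmt` from the rows. -/

namespace Vale.Agent.P235.H830

open SimpleGraph Vale.Agent.P235.H134 Vale.Agent.P235.H56 Vale.Agent.P235.H141

/-- union of the branch sets of the indices in `Z` -/
def UU {V I : Type} (Y : I → Set V) (Z : Set I) : Set V := ⋃ x ∈ Z, Y x

section
variable {V I : Type} {G : SimpleGraph V} {H : SimpleGraph I} {Y : I → Set V}

theorem mem_UU {Z : Set I} {v : V} : v ∈ UU Y Z ↔ ∃ x ∈ Z, v ∈ Y x := by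
  simp [UU]

theorem sub_UU {Z : Set I} {x : I} (hx : x ∈ Z) : Y x ⊆ UU Y Z := fun _ hv => mem_UU.2 ⟨x, hx, hv⟩

theorem UU_mono {Z Z' : Set I} (h : Z ⊆ Z') : UU Y Z ⊆ UU Y Z' := fun _ hv => by
  obtain ⟨x, hx, hv⟩ := mem_UU.1 hv
  exact mem_UU.2 ⟨x, h hx, hv⟩

theorem UU_conn (hc : ∀ x, (G.induce (Y x)).Connected)
    (ha : ∀ x y, H.Adj x y → ∃ u ∈ Y x, ∃ v ∈ Y y, G.Adj u v) {Z : Set I}
    (hZ : (H.induce Z).Connected) : (G.induce (UU Y Z)).Connected := by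
  classical
  have hne := hZ.nonempty
  obtain ⟨z0⟩ := hne
  obtain ⟨v0⟩ := (hc z0.1).nonempty
  have hv0 : v0.1 ∈ UU Y Z := sub_UU z0.2 v0.2
  have hloc : ∀ (x : I) (hx : x ∈ Z) (u v : V) (hu : u ∈ Y x) (hv : v ∈ Y x),
      (G.induce (UU Y Z)).Reachable ⟨u, sub_UU hx hu⟩ ⟨v, sub_UU hx hv⟩ := by
    intro x hx u v hu hv
    exact ((hc x).preconnected ⟨u, hu⟩ ⟨v, hv⟩).map
      (SimpleGraph.induceHomOfLE G (sub_UU (Y := Y) hx)).toHom
  have key : ∀ (x y : Z) (w : (H.induce Z).Walk x y) (u v : V) (hu : u ∈ Y x) (hv : v ∈ Y y),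
      (G.induce (UU Y Z)).Reachable ⟨u, sub_UU x.2 hu⟩ ⟨v, sub_UU y.2 hv⟩ := by
    intro x y w
    induction w with
    | @nil x => intro u v hu hv; exact hloc x.1 x.2 u v hu hv
    | @cons x y z hadj _ ih =>
      intro u v hu hv
      obtain ⟨p, hp, q, hq, hpq⟩ := ha x.1 y.1 hadj
      have h1 := hloc x.1 x.2 u p hu hp
      have h2 : (G.induce (UU Y Z)).Adj ⟨p, sub_UU x.2 hp⟩ ⟨q, sub_UU y.2 hq⟩ := hpq
      exact h1.trans (h2.reachable.trans (ih q v hq hv))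
  have : Nonempty (UU Y Z) := ⟨⟨v0.1, hv0⟩⟩
  refine ⟨fun a b => ?_⟩
  obtain ⟨x, hx, hax⟩ := mem_UU.1 a.2
  obtain ⟨y, hy, hby⟩ := mem_UU.1 b.2
  obtain ⟨w⟩ := hZ.preconnected ⟨x, hx⟩ ⟨y, hy⟩
  exact key _ _ w a.1 b.1 hax hby

theorem UU_disj (hd : ∀ x y, x ≠ y → Disjoint (Y x) (Y y)) {Z Z' : Set I} (h : Disjoint Z Z') :
    Disjoint (UU Y Z) (UU Y Z') := by
  rw [Set.disjoint_left]
  intro v hv hv'
  obtain ⟨x, hx, hvx⟩ := mem_UU.1 hv
  obtain ⟨y, hy, hvy⟩ := mem_UU.1 hv'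
  have hxy : x ≠ y := by
    rintro rfl
    exact Set.disjoint_left.1 h hx hy
  exact Set.disjoint_left.1 (hd x y hxy) hvx hvy

theorem UU_touch (ha : ∀ x y, H.Adj x y → ∃ u ∈ Y x, ∃ v ∈ Y y, G.Adj u v) {Z Z' : Set I}
    (h : Touch H Z Z') : Touch G (UU Y Z) (UU Y Z') := by
  obtain ⟨x, hx, y, hy, hxy⟩ := h
  obtain ⟨u, hu, v, hv, huv⟩ := ha x y hxy
  exact ⟨u, sub_UU hx hu, v, sub_UU hy hv, huv⟩

theorem UU_disj' {Z : Set I} {S : Set V} (h : ∀ x ∈ Z, Disjoint (Y x) S) : Disjoint (UU Y Z) S := by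
  rw [Set.disjoint_left]
  intro v hv hvS
  obtain ⟨x, hx, hvx⟩ := mem_UU.1 hv
  exact Set.disjoint_left.1 (h x hx) hvx hvS

/-- disjoint sets which meet `S` -/
theorem ncard_meet {S : Set V} (hS : S.Finite) {T : Set I}
    (hd : ∀ x ∈ T, ∀ y ∈ T, x ≠ y → Disjoint (Y x) (Y y)) (hT : ∀ x ∈ T, ¬ Disjoint (Y x) S) :
    T.ncard ≤ S.ncard := by
  classical
  rcases T.eq_empty_or_nonempty with rfl | ⟨x0, hx0⟩
  · simp
  obtain ⟨v0, -, -⟩ := Set.not_disjoint_iff.1 (hT x0 hx0)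
  have h : ∀ x : I, ∃ v : V, x ∈ T → v ∈ Y x ∧ v ∈ S := by
    intro x
    by_cases hx : x ∈ T
    · obtain ⟨v, hv, hv'⟩ := Set.not_disjoint_iff.1 (hT x hx)
      exact ⟨v, fun _ => ⟨hv, hv'⟩⟩
    · exact ⟨v0, fun h => absurd h hx⟩
  choose f hf using h
  refine Set.ncard_le_ncard_of_injOn f (fun x hx => (hf x hx).2) ?_ hS
  intro x hx y hy hxy
  by_contra hne
  exact Set.disjoint_left.1 (hd x hx y hy hne) (hf x hx).1 (by rw [hxy]; exact (hf y hy).1)

/-- disjoint nonempty sets -/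
theorem ncard_UU [Finite V] {T : Set I} (hd : ∀ x y, x ≠ y → Disjoint (Y x) (Y y))
    (hne : ∀ x, (Y x).Nonempty) : T.ncard ≤ (UU Y T).ncard := by
  refine ncard_meet (Y := Y) (Set.toFinite _) (fun x _ y _ h => hd x y h) fun x hx h => ?_
  obtain ⟨v, hv⟩ := hne x
  exact Set.disjoint_left.1 h hv (sub_UU hx hv)

end

theorem sPrime_of (hV : V2Stmt) (hC : ColStmt) (hF : FailStmt) (hUp : UpStmt) (hU : UncStmt)
    (hI : Ind4Stmt) (hG : GeoStmt) (hB : BlkStmt) : SPrimeStmt := by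
  classical
  intro r hr V _ G h3 hm
  obtain ⟨φ, hc, hd, ha⟩ := hm
  by_contra hQ
  set μ : Fin 3 ⊕ Fin 3 → Set V := fun a => φ (Sum.inl a) with hμdef
  set Y : Fin (RR r) × Fin (RR r) → Set V := fun x => φ (Sum.inr x) with hYdef
  have hμ : Mod G μ := ⟨fun a => hc _, fun a b h => hd _ _ (by simpa using h), fun a b h =>
    ha (Sum.inl a) (Sum.inl b) (by simpa using h)⟩
  have hYc : ∀ x, (G.induce (Y x)).Connected := fun x => hc _
  have hYd : ∀ x y, x ≠ y → Disjoint (Y x) (Y y) := fun x y h => hd _ _ (by simpa using h)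
  have hYa : ∀ x y, (grid (RR r)).Adj x y → ∃ u ∈ Y x, ∃ v ∈ Y y, G.Adj u v := fun x y h =>
    ha (Sum.inr x) (Sum.inr y) (by simpa using h)
  have hYne : ∀ x, (Y x).Nonempty := fun x => by
    obtain ⟨v⟩ := (hYc x).nonempty
    exact ⟨v.1, v.2⟩
  have hμY : ∀ a x, Disjoint (μ a) (Y x) := fun a x => hd _ _ (by simp)
  have hμU : ∀ a Z, Disjoint (μ a) (UU Y Z) := fun a Z => by
    refine (UU_disj' fun x _ => ?_).symm
    exact (hμY a x).symm
  have hr1 : 1 ≤ r := by omega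
  -- the blocks
  have hrb : ∀ k i, ring r k i ⊆ blk r k := fun k i x hx => hx.1
  have hfail : ∀ k : Fin 16, ¬ Lkd (col G (UU Y (blk r k)) fun i => UU Y (ring r k i))
      (Sum.inr none) (fun a => up (UU Y (blk r k)) (μ a)) := by
    intro k hL
    obtain ⟨b1, b2, b3, b4, b5, b6, b7, b8, -, -⟩ := hB r k hr1
    obtain ⟨ν, a, hν, hνa⟩ := hV _ _ _ _
      (hUp V G (UU Y (blk r k)) (fun i => UU Y (ring r k i)) μ hμ fun a => hμU a _) hL
    refine hQ (hC V G (UU Y (blk r k)) (fun i => UU Y (ring r k i)) r (fun p => Y (inn r k p))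
      (fun i => UU_conn hYc hYa (b1 i)) (fun i j h => UU_disj hYd (b2 i j h))
      (fun i j h => UU_touch hYa (b3 i j h)) (fun i => UU_mono (hrb k i)) (fun p => hYc _)
      (fun p q h => hYd _ _ fun h' => h (b4 h')) (fun p q h => hYa _ _ (b5 p q h))
      (fun p => sub_UU (b6 p)) (fun p i => ?_) (fun i p hp => ?_) ⟨ν, a, hν, hνa⟩)
    · refine (UU_disj' fun x hx => ?_).symm
      refine hYd _ _ ?_
      rintro rfl
      exact b7 p i hx
    · obtain ⟨x, hx, y, hy, hxy⟩ := b8 i p hp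
      obtain ⟨u, hu, v, hv, huv⟩ := hYa x y hxy
      rw [Set.mem_singleton_iff.1 hy] at hv
      exact ⟨u, sub_UU hx hu, v, hv, huv⟩
  have hF' := fun k : Fin 16 => hF V G (UU Y (blk r k)) (fun i => UU Y (ring r k i)) μ hμ
    (fun a => hμU a _) (fun i => UU_mono (hrb k i)) (hfail k)
  choose S D i hS hSB hDB hN hμD hZ using hF'
  set T : Fin 16 → Set (Fin (RR r) × Fin (RR r)) := fun k => {x | ¬ Disjoint (Y x) (S k)} with hT
  have hTc : ∀ k, (T k).ncard ≤ 2 := fun k =>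
    (ncard_meet (Y := Y) (Set.toFinite (S k)) (fun x _ y _ h => hYd x y h)
      (fun x hx => hx)).trans (hS k)
  have hbd : ∀ k l, k ≠ l → Disjoint (blk r k) (blk r l) := fun k l h => (hB r k hr1).2.2.2.2.2.2.2.2.2 l h
  obtain ⟨g, hg, hgf⟩ := hI (fun k => {l | ¬ Disjoint (blk r l) (T k)}) fun k =>
    (ncard_meet (Y := blk r) (Set.toFinite (T k)) (fun x _ y _ h => hbd x y h)
      (fun x hx => hx)).trans (hTc k)
  have hTk : ∀ k, Disjoint (T k) (blk r k) := by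
    intro k
    rw [Set.disjoint_left]
    intro x hx hxb
    obtain ⟨v, hv, hvS⟩ := Set.not_disjoint_iff.1 hx
    exact Set.disjoint_left.1 (hSB k) hvS (sub_UU hxb hv)
  have hTl : ∀ a b, Disjoint (T (g a)) (blk r (g b)) := by
    intro a b
    by_cases hab : a = b
    · subst hab; exact hTk _
    · by_contra h
      exact hgf a b hab fun h' => h h'.symm
  have hSl : ∀ a b, Disjoint (S (g a)) (UU Y (blk r (g b))) := by
    intro a b
    refine (UU_disj' fun x hx => ?_).symm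
    by_contra h
    exact Set.disjoint_left.1 (hTl a b) (show x ∈ T (g a) from h) hx
  refine hU V G (fun a => UU Y (blk r (g a))) (fun a => S (g a)) (fun a => D (g a)) h3
    (fun a => hS _) (fun a b h => UU_disj hYd (hbd _ _ fun h' => h (hg h'))) hSl ?_
    (fun a => hN _) ?_ ?_
  · intro a b
    by_cases hab : a = b
    · subst hab; exact hDB _
    · obtain ⟨Z, z1, z2, z3, z4, z5⟩ := hG r hr (g a) (g b) (fun h => hab (hg h)) (T (g a)) (hTc _)
        (hTl a a) (hTl a b) (i (g a))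
      have h := hZ (g a) (UU Y Z) (UU_conn hYc hYa z1) (UU_disj hYd z3) (UU_disj' fun x hx => by
        by_contra h
        exact Set.disjoint_left.1 z4 hx h) (UU_touch hYa z5)
      exact (h.mono_left (UU_mono z2)).symm
  · intro a b
    have : ∃ c, Disjoint (μ c) (S (g a) ∪ S (g b)) := by
      by_contra h
      push Not at h
      have h1 := ncard_meet (Y := μ) (S := S (g a) ∪ S (g b)) (T := Set.univ) (Set.toFinite _)
        (fun x _ y _ h => hμ.disj x y h) (fun x _ => h x)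
      have h2 := Set.ncard_union_le (S (g a)) (S (g b))
      have h4 := hS (g a)
      have h5 := hS (g b)
      have h6 : (Set.univ : Set (Fin 3 ⊕ Fin 3)).ncard = 6 := by
        rw [Set.ncard_univ, Nat.card_eq_fintype_card]; rfl
      omega
    obtain ⟨c, hc'⟩ := this
    obtain ⟨v⟩ := (hμ.conn c).nonempty
    exact ⟨v.1, hμD _ c (hc'.mono_right Set.subset_union_left) v.2,
      hμD _ c (hc'.mono_right Set.subset_union_right) v.2⟩
  · exact (hB r (g 0) hr1).2.2.2.2.2.2.2.2.1.trans (ncard_UU hYd hYne)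

end Vale.Agent.P235.H830
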